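import Vale.Agent.P088.R2.H455.S4.Est4

/-!
# P088, stage 4: Question 1 in full from the two-slot estimate

The statement of the hand-in; only the hypothesis `RowESTh` has to be replaced by its proof.
-/

open Manifold Vale.Agent.P088.B
open scoped ContDiff

namespace Vale.Agent.P088.R2.H31.F4

universe u

/-- **Question 1 in full.** -/
theorem full (hE : S4.RowESTh) {n N : ℕ} [NeZero n] (hn : 3 ≤ n) (hN : 1 ≤ N) {M : Type u}
    [TopologicalSpace M] [ChartedSpace (EuclideanHalfSpace n) M] [IsManifold (𝓡∂ n) ∞ M]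
    [T2Space M] [CompactSpace M] [ConnectedSpace M] (Z : At n M) (hZ : Z = at_ n M)
    (Γ O : Set M) (hO : IsOpen O) (hΓ : Γ = O ∩ bd Z) (hne : Γ.Nonempty) (P Q : Pair Z N)
    (hPQ : B.SameData Γ P Q) : Related Γ P Q := by
  subst hZ
  exact S4.stage4_one_est hE hn hN Γ O hO hΓ hne P Q hPQ

end Vale.Agent.P088.R2.H31.F4
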